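import Mathlib
import Vale.Agent.P219.Main
import Vale.Agent.P219.Geometric

/-!
The sharp Euclidean isoperimetric constant for monotone conformal factors, in every dimension,
in functional form and for symmetric domains with regular boundary.
-/

namespace Vale.Agent.Results.P219.UnimodalConformal

open MeasureTheory Set Real Vale.Agent.P219

theorem result :
    (∀ (n : ℕ), 2 ≤ n → ∀ φ f : (Fin n → ℝ) → ℝ, ContDiff ℝ 1 φ →
      (∀ x y : Fin n → ℝ, 0 ≤ x → x ≤ y → φ x ≤ φ y) → ContDiff ℝ 1 f → HasCompactSupport f →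
      (n : ℝ) * ((volume (Metric.ball (0 : EuclideanSpace ℝ (Fin n)) 1)).toReal / 2 ^ n) ^ ((1 : ℝ) / n) *
          (∫ x in Ici (0 : Fin n → ℝ), exp ((n : ℝ) * φ x) * |f x| ^ ((n : ℝ) / ((n : ℝ) - 1)))
            ^ (((n : ℝ) - 1) / n)
        ≤ ∫ x in Ici (0 : Fin n → ℝ), exp (((n : ℝ) - 1) * φ x) * gradLen f x) ∧
    (∀ (n : ℕ), 2 ≤ n → ∀ φ f : (Fin n → ℝ) → ℝ, ContDiff ℝ 1 φ →
      (∀ x y : Fin n → ℝ, (∀ i, |x i| ≤ |y i|) → φ x ≤ φ y) → ContDiff ℝ 1 f → HasCompactSupport f →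
      (∀ x, f (fun i => |x i|) = f x) →
      (n : ℝ) * (volume (Metric.ball (0 : EuclideanSpace ℝ (Fin n)) 1)).toReal ^ ((1 : ℝ) / n) *
          (∫ x, exp ((n : ℝ) * φ x) * |f x| ^ ((n : ℝ) / ((n : ℝ) - 1))) ^ (((n : ℝ) - 1) / n)
        ≤ ∫ x, exp (((n : ℝ) - 1) * φ x) * gradLen f x) ∧
    (∀ (n : ℕ), 2 ≤ n → ∀ φ u : EuclideanSpace ℝ (Fin n) → ℝ, ContDiff ℝ 1 φ →
      (∀ x y : EuclideanSpace ℝ (Fin n), (∀ i, |x i| ≤ |y i|) → φ x ≤ φ y) → ContDiff ℝ 1 u →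
      Bornology.IsBounded {x | u x < 0} → (∀ x, u x = 0 → fderiv ℝ u x ≠ 0) →
      (∀ x y : EuclideanSpace ℝ (Fin n), (∀ i, |x i| = |y i|) → u x < 0 → u y < 0) →
      ENNReal.ofReal ((n : ℝ) *
          (volume (Metric.ball (0 : EuclideanSpace ℝ (Fin n)) 1)).toReal ^ ((1 : ℝ) / n) *
          (∫ x in {x | u x < 0}, exp ((n : ℝ) * φ x)) ^ (((n : ℝ) - 1) / n))
        ≤ ∫⁻ x in frontier {x | u x < 0},
            ENNReal.ofReal (exp (((n : ℝ) - 1) * φ x)) ∂μHE[n - 1]) ∧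
    (∀ (f R : ℝ → ℝ) (a b : ℝ), (∀ r ∈ Ioo a b, DifferentiableAt ℝ f r) →
      (∀ r ∈ Ioo a b, 1 ≤ deriv f r) → (∀ r ∈ Ioo a b, 0 < f r) →
      (∀ r ∈ Ioo a b, HasDerivAt R (R r / f r) r) → (∀ r ∈ Ioo a b, 0 < R r) →
      MonotoneOn (fun r => log (f r / R r)) (Ioo a b)) :=
  ⟨fun _ hn _ _ h1 h2 h3 h4 => orthant_inequality hn h1 h2 h3 h4,
    fun _ hn _ _ h1 h2 h3 h4 h5 => symmetric_inequality hn h1 h2 h3 h4 h5,
    fun _ hn _ _ h1 h2 h3 h4 h5 h6 => geometric_inequality hn h1 h2 h3 h4 h5 h6,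
    fun _ _ _ _ h1 h2 h3 h4 h5 => monotoneOn_conformal h1 h2 h3 h4 h5⟩

end Vale.Agent.Results.P219.UnimodalConformal
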